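import Vale.Agent.P054.MathlibUsed
import Vale.Agent.P054.H25.Defs
attribute [-instance] ProperSMul.toContinuousSMul IsTopologicalTorsor.toContinuousSMul IdemSemiring.toCanonicallyOrderedAdd IdemSemiring.toMulLeftMono IdemSemiring.toMulRightMono AddQuantale.instAddLeftMono AddQuantale.instAddRightMono Quantale.instMulLeftMono Quantale.instMulRightMono FiniteDimensional.rclike_to_real IsScalarTower.complexToReal FiniteDimensional.complexToReal

set_option linter.all false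
set_option autoImplicit false

open Finset

/-! P054, few points on `k`-flats: the conversion to the number of distances, real numbers. -/

namespace Vale.Agent.P054F

theorem al_pos_c {d k : ℕ} (hk : 1 ≤ k) (hkd : k < d) : 0 < al d k := by
  have h1 : (1:ℝ) ≤ k := by exact_mod_cast hk
  have h2 : (k:ℝ) + 1 ≤ d := by exact_mod_cast hkd
  unfold al
  apply div_pos
  · apply mul_pos <;> linarith
  · linarith

theorem be_pos_c {d k : ℕ} (hk : 1 ≤ k) (hkd : k < d) : 0 < be d k := by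
  have h1 : (1:ℝ) ≤ k := by exact_mod_cast hk
  have h2 : (k:ℝ) + 1 ≤ d := by exact_mod_cast hkd
  unfold be
  apply div_pos <;> linarith

theorem al_le_half {d k : ℕ} (hk : 1 ≤ k) (hkd : k < d) : al d k ≤ (d:ℝ) / 2 := by
  have h1 : (1:ℝ) ≤ k := by exact_mod_cast hk
  have h2 : (k:ℝ) + 1 ≤ d := by exact_mod_cast hkd
  unfold al
  rw [div_le_div_iff₀ (by linarith) (by norm_num)]
  nlinarith

theorem al_be_half {d k : ℕ} (hk : 1 ≤ k) (hkd : k < d) :
    al d k + ((k:ℝ) - 1) / 2 * be d k ≤ (d:ℝ) / 2 := by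
  have h1 : (1:ℝ) ≤ k := by exact_mod_cast hk
  have h2 : (k:ℝ) + 1 ≤ d := by exact_mod_cast hkd
  have h3 : al d k + ((k:ℝ) - 1) / 2 * be d k =
      (d:ℝ) / 2 - ((k:ℝ) - 1) / (2 * (2 * d - k - 1)) := by
    unfold al be
    have h4 : (2 * (d:ℝ) - k - 1) ≠ 0 := by linarith
    obtain ⟨D, hD⟩ : ∃ D : ℝ, D = 2 * (d:ℝ) - k - 1 := ⟨_, rfl⟩
    have hkD : (k:ℝ) = 2 * d - 1 - D := by linarith
    rw [← hD] at h4 ⊢
    rw [hkD]
    field_simp
    ring
  rw [h3]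
  have : 0 ≤ ((k:ℝ) - 1) / (2 * (2 * d - k - 1)) := by
    apply div_nonneg <;> linarith
  linarith

/-- a power bound for `n` gives a bound for the number of distances -/
theorem conv_pow {a b C ε x n T t : ℝ} (ha : 0 < a) (hC : 0 < C) (hε : 0 < ε)
    (hx : 0 ≤ x) (hT1 : 1 ≤ T) (hTn : T ≤ n) (hTt : T ≤ 2 * t) (hb : b ≤ a * (1 + ε))
    (h : x ≤ C * T ^ b) : (2 * C ^ (1 / a))⁻¹ * (n ^ (-ε) * x ^ (1 / a)) ≤ t := by
  have hT0 : 0 < T := by linarith
  have hn0 : 0 < n := by linarith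
  have h1 : x ≤ C * T ^ (a * (1 + ε)) :=
    h.trans (mul_le_mul_of_nonneg_left (Real.rpow_le_rpow_of_exponent_le hT1 hb) hC.le)
  have h2 : x ^ (1 / a) ≤ C ^ (1 / a) * T ^ (1 + ε) := by
    have h3 := Real.rpow_le_rpow hx h1 (by positivity : 0 ≤ 1 / a)
    rw [Real.mul_rpow hC.le (by positivity), ← Real.rpow_mul hT0.le] at h3
    have h4 : a * (1 + ε) * (1 / a) = 1 + ε := by field_simp
    rwa [h4] at h3
  have h5 : T ^ (1 + ε) ≤ T * n ^ ε := by
    rw [Real.rpow_add hT0, Real.rpow_one]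
    exact mul_le_mul_of_nonneg_left (Real.rpow_le_rpow hT0.le hTn hε.le) hT0.le
  have hCa : 0 < C ^ (1 / a) := by positivity
  have hne : 0 < n ^ ε := by positivity
  rw [inv_mul_le_iff₀ (by positivity), Real.rpow_neg hn0.le, inv_mul_le_iff₀ hne]
  calc x ^ (1 / a) ≤ C ^ (1 / a) * T ^ (1 + ε) := h2
    _ ≤ C ^ (1 / a) * (T * n ^ ε) := mul_le_mul_of_nonneg_left h5 hCa.le
    _ ≤ C ^ (1 / a) * ((2 * t) * n ^ ε) := by
        apply mul_le_mul_of_nonneg_left _ hCa.le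
        exact mul_le_mul_of_nonneg_right hTt hne.le
    _ = n ^ ε * (2 * C ^ (1 / a) * t) := by ring

/-- the quantity `(n^(2d-k-1)/m^(d-1))^(1/(d(d-k)))` -/
theorem ratio_eq {d k : ℕ} (hk : 1 ≤ k) (hkd : k < d) {n m : ℝ} (hn : 0 < n) (hm : 0 < m) :
    (n ^ (2 * (d:ℝ) - k - 1) / m ^ ((d:ℝ) - 1)) ^ (1 / ((d:ℝ) * ((d:ℝ) - k))) =
      (n / m ^ (be d k)) ^ (1 / al d k) := by
  have h1 : (1:ℝ) ≤ k := by exact_mod_cast hk
  have h2 : (k:ℝ) + 1 ≤ d := by exact_mod_cast hkd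
  have h3 : (2 * (d:ℝ) - k - 1) ≠ 0 := by linarith
  have h4 : (d:ℝ) ≠ 0 := by linarith
  have h5 : (d:ℝ) - k ≠ 0 := by linarith
  have h6 : n ^ (2 * (d:ℝ) - k - 1) / m ^ ((d:ℝ) - 1) =
      (n / m ^ (be d k)) ^ (2 * (d:ℝ) - k - 1) := by
    rw [Real.div_rpow hn.le (by positivity), ← Real.rpow_mul hm.le]
    congr 2
    unfold be
    rw [div_mul_cancel₀ _ h3]
  rw [h6, ← Real.rpow_mul (by positivity)]
  congr 1
  unfold al
  field_simp

/-- conversion, `μ = m` -/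
theorem conv_a {d k : ℕ} (hk : 1 ≤ k) (hkd : k < d) {C ε : ℝ} (hC : 0 < C) (hε : 0 < ε)
    {n t m : ℝ} (ht : 1 ≤ t) (htn : t + 1 ≤ n) (hm : 1 ≤ m)
    (h : n ≤ C * (t + 1) ^ (al d k + ε * al d k) * m ^ (be d k)) :
    (2 * C ^ (1 / al d k))⁻¹ * (n ^ (-ε) *
      (n ^ (2 * (d:ℝ) - k - 1) / m ^ ((d:ℝ) - 1)) ^ (1 / ((d:ℝ) * ((d:ℝ) - k)))) ≤ t := by
  have hn0 : 0 < n := by linarith
  have hm0 : 0 < m := by linarith
  have ha := al_pos_c hk hkd
  rw [ratio_eq hk hkd hn0 hm0]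
  have hmb : 0 < m ^ (be d k) := by positivity
  refine conv_pow (b := al d k + ε * al d k) (T := t + 1) ha hC hε (by positivity) (by linarith)
    htn (by linarith) (by nlinarith) ?_
  rw [div_le_iff₀ hmb]
  exact h

/-- conversion, `μ = (t+1)^((k-1)/2)` -/
theorem conv_b {d k : ℕ} (hk : 1 ≤ k) (hkd : k < d) {C ε : ℝ} (hC : 0 < C) (hε : 0 < ε)
    {n t : ℝ} (ht : 1 ≤ t) (htn : t + 1 ≤ n)
    (h : n ≤ C * (t + 1) ^ (al d k + ε * al d k) * ((t + 1) ^ (((k:ℝ) - 1) / 2)) ^ (be d k)) :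
    (2 * C ^ (2 / (d:ℝ)))⁻¹ * (n ^ (-ε) * n ^ (2 / (d:ℝ))) ≤ t := by
  have hn0 : 0 < n := by linarith
  have hT0 : 0 < t + 1 := by linarith
  have ha := al_pos_c hk hkd
  have hd0 : (0:ℝ) < d := by
    have : 0 < d := by omega
    exact_mod_cast this
  have h1 : (2:ℝ) / d = 1 / ((d:ℝ) / 2) := by field_simp
  rw [h1]
  refine conv_pow (b := al d k + ε * al d k + ((k:ℝ) - 1) / 2 * be d k) (T := t + 1)
    (by positivity) hC hε hn0.le (by linarith) htn (by linarith) ?_ ?_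
  · have h2 := al_be_half hk hkd
    have h3 := al_le_half hk hkd
    nlinarith
  · rw [← Real.rpow_mul hT0.le, mul_assoc, ← Real.rpow_add hT0] at h
    exact h

end Vale.Agent.P054F
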