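import Vale.Agent.P054.MathlibUsed
import Vale.Agent.P054.H25.Defs
import Vale.Agent.P054.H438.Num1
attribute [-instance] ProperSMul.toContinuousSMul IsTopologicalTorsor.toContinuousSMul IdemSemiring.toCanonicallyOrderedAdd IdemSemiring.toMulLeftMono IdemSemiring.toMulRightMono AddQuantale.instAddLeftMono AddQuantale.instAddRightMono Quantale.instMulLeftMono Quantale.instMulRightMono FiniteDimensional.rclike_to_real IsScalarTower.complexToReal FiniteDimensional.complexToReal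

set_option linter.all false
set_option autoImplicit false

open Finset

/-! P054, few points on `k`-flats: from the bound on the number of points to distances. -/

namespace Vale.Agent.P054F

/-- the bound that the induction proves, in dimension `d` for `k`-flats -/
def MF (d k : ℕ) : Prop :=
  ∀ e : ℝ, 0 < e → ∃ C : ℝ, 0 < C ∧ ∀ (t m : ℕ) (μ : ℝ), (m:ℝ) ≤ μ → 1 ≤ μ →
    (d ≤ k + 2 ∨ ((t:ℝ) + 1) ^ (((k:ℝ) - 1) / 2) ≤ μ) →
    PF d k t m (C * ((t:ℝ) + 1) ^ (al d k + e) * μ ^ (be d k))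

/-- the number of points on `k`-flats is at least one -/
theorem KF.one_le {d k m : ℕ} {P : Finset (EuclideanSpace ℝ (Fin d))} (h : KF k m P)
    (hk : k ≤ d) (hP : P.Nonempty) : 1 ≤ m := by
  classical
  obtain ⟨p, hp⟩ := hP
  obtain ⟨s, hs1, hs2⟩ := exists_finset_linearIndependent_of_le_finrank (R := ℝ)
    (M := EuclideanSpace ℝ (Fin d)) (n := k) (by rw [finrank_euclideanSpace_fin]; exact hk)
  have h1 : Module.finrank ℝ (Submodule.span ℝ (s : Set (EuclideanSpace ℝ (Fin d)))) = k := by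
    rw [finrank_span_finset_eq_card hs2, hs1]
  have h2 := h (AffineSubspace.mk' p (Submodule.span ℝ (s : Set (EuclideanSpace ℝ (Fin d)))))
    (by rw [AffineSubspace.direction_mk']; exact h1)
  refine le_trans ?_ h2
  rw [Nat.succ_le_iff, card_pos]
  exact ⟨p, mem_filter.mpr ⟨hp, AffineSubspace.self_mem_mk' p _⟩⟩

/-- a point with the largest number of distances to the others -/
theorem exists_max_pinned {d : ℕ} (P : Finset (EuclideanSpace ℝ (Fin d))) (hP : 2 ≤ P.card) :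
    ∃ p ∈ P, 1 ≤ ((P.erase p).image (dist p)).card ∧
      ((P.erase p).image (dist p)).card + 1 ≤ P.card ∧
      ∀ q ∈ P, (P.image (dist q)).card ≤ ((P.erase p).image (dist p)).card + 1 := by
  classical
  have hne : P.Nonempty := card_pos.mp (by omega)
  obtain ⟨p, hp, hmax⟩ := P.exists_max_image (fun p => ((P.erase p).image (dist p)).card) hne
  refine ⟨p, hp, ?_, ?_, ?_⟩
  · rw [Nat.succ_le_iff, card_pos]
    apply Nonempty.image
    rw [← card_pos, card_erase_of_mem hp]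
    omega
  · have h1 : ((P.erase p).image (dist p)).card ≤ (P.erase p).card := card_image_le
    rw [card_erase_of_mem hp] at h1
    omega
  · intro q hq
    have h1 : P.image (dist q) ⊆ insert 0 ((P.erase q).image (dist q)) := by
      intro r hr
      rw [mem_image] at hr
      obtain ⟨z, hz, rfl⟩ := hr
      rw [mem_insert, mem_image]
      by_cases h : z = q
      · left
        rw [h, dist_self]
      · right
        exact ⟨z, mem_erase.mpr ⟨h, hz⟩, rfl⟩
    have h2 := card_le_card h1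
    have h3 : (insert (0:ℝ) ((P.erase q).image (dist q))).card ≤
        ((P.erase q).image (dist q)).card + 1 := card_insert_le _ _
    have h4 := hmax q hq
    omega

/-- conversion of the bound on the number of points -/
theorem conv_flats {d k : ℕ} (hk : 1 ≤ k) (hkd : k < d) (hMF : MF d k) :
    ∀ ε : ℝ, 0 < ε → ∃ c : ℝ, 0 < c ∧ ∀ (P : Finset (EuclideanSpace ℝ (Fin d))) (m : ℕ),
      2 ≤ P.card → KF k m P → 1 ≤ m ∧ ∃ p ∈ P,
        (d ≤ k + 2 → c * ((P.card:ℝ) ^ (-ε) *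
          ((P.card:ℝ) ^ (2 * (d:ℝ) - k - 1) / (m:ℝ) ^ ((d:ℝ) - 1)) ^
            (1 / ((d:ℝ) * ((d:ℝ) - k)))) ≤ (((P.erase p).image (dist p)).card : ℝ)) ∧
        c * ((P.card:ℝ) ^ (-ε) * min ((P.card:ℝ) ^ (2 / (d:ℝ)))
          (((P.card:ℝ) ^ (2 * (d:ℝ) - k - 1) / (m:ℝ) ^ ((d:ℝ) - 1)) ^
            (1 / ((d:ℝ) * ((d:ℝ) - k))))) ≤ (((P.erase p).image (dist p)).card : ℝ) := by
  classical
  intro ε hε
  have ha := al_pos_c hk hkd
  have hb := be_pos_c hk hkd
  obtain ⟨C, hC, hmain⟩ := hMF (ε * al d k) (by positivity)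
  have hc1 : 0 < (2 * C ^ (1 / al d k))⁻¹ := by positivity
  have hc2 : 0 < (2 * C ^ (2 / (d:ℝ)))⁻¹ := by positivity
  refine ⟨min (2 * C ^ (1 / al d k))⁻¹ (2 * C ^ (2 / (d:ℝ)))⁻¹, lt_min hc1 hc2, ?_⟩
  intro P m hP hK
  have hm1 : 1 ≤ m := hK.one_le hkd.le (card_pos.mp (by omega))
  refine ⟨hm1, ?_⟩
  have hm1' : (1:ℝ) ≤ m := by exact_mod_cast hm1
  obtain ⟨p, hp, ht1, htn, hall⟩ := exists_max_pinned P hP
  refine ⟨p, hp, ?_⟩
  generalize htdef : ((P.erase p).image (dist p)).card = t at ht1 htn hall ⊢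
  have ht1' : (1:ℝ) ≤ t := by exact_mod_cast ht1
  have htn' : (t:ℝ) + 1 ≤ P.card := by exact_mod_cast htn
  have hT0 : (0:ℝ) < (t:ℝ) + 1 := by positivity
  have hn0 : (0:ℝ) < P.card := by linarith
  have hm0 : (0:ℝ) < m := by linarith
  set R : ℝ := ((P.card:ℝ) ^ (2 * (d:ℝ) - k - 1) / (m:ℝ) ^ ((d:ℝ) - 1)) ^
            (1 / ((d:ℝ) * ((d:ℝ) - k))) with hR
  have hR0 : 0 ≤ R := by positivity
  have hnε : 0 < (P.card:ℝ) ^ (-ε) := by positivity
  have hn2 : 0 < (P.card:ℝ) ^ (2 / (d:ℝ)) := by positivity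
  have hk1 : (0:ℝ) ≤ ((k:ℝ) - 1) / 2 := by
    have : (1:ℝ) ≤ k := by exact_mod_cast hk
    linarith
  -- the two conversions
  have hA : (P.card:ℝ) ≤ C * ((t:ℝ) + 1) ^ (al d k + ε * al d k) * (m:ℝ) ^ (be d k) →
      min (2 * C ^ (1 / al d k))⁻¹ (2 * C ^ (2 / (d:ℝ)))⁻¹ * ((P.card:ℝ) ^ (-ε) * R) ≤ t := by
    intro h
    refine le_trans ?_ (conv_a hk hkd hC hε ht1' htn' hm1' h)
    exact mul_le_mul_of_nonneg_right (min_le_left _ _) (by positivity)
  have hB : (P.card:ℝ) ≤ C * ((t:ℝ) + 1) ^ (al d k + ε * al d k) *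
        (((t:ℝ) + 1) ^ (((k:ℝ) - 1) / 2)) ^ (be d k) →
      min (2 * C ^ (1 / al d k))⁻¹ (2 * C ^ (2 / (d:ℝ)))⁻¹ *
        ((P.card:ℝ) ^ (-ε) * (P.card:ℝ) ^ (2 / (d:ℝ))) ≤ t := by
    intro h
    refine le_trans ?_ (conv_b hk hkd hC hε ht1' htn' h)
    exact mul_le_mul_of_nonneg_right (min_le_right _ _) (by positivity)
  have hcmin : 0 < min (2 * C ^ (1 / al d k))⁻¹ (2 * C ^ (2 / (d:ℝ)))⁻¹ := lt_min hc1 hc2
  refine ⟨?_, ?_⟩
  · intro hd2
    exact hA (hmain t m m le_rfl hm1' (Or.inl hd2) P hall hK)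
  · rcases le_total (((t:ℝ) + 1) ^ (((k:ℝ) - 1) / 2)) (m:ℝ) with h | h
    · refine le_trans ?_ (hA (hmain t m m le_rfl hm1' (Or.inr h) P hall hK))
      apply mul_le_mul_of_nonneg_left _ hcmin.le
      exact mul_le_mul_of_nonneg_left (min_le_right _ _) hnε.le
    · have h1 : (1:ℝ) ≤ ((t:ℝ) + 1) ^ (((k:ℝ) - 1) / 2) := hm1'.trans h
      refine le_trans ?_ (hB (hmain t m _ h h1 (Or.inr le_rfl) P hall hK))
      apply mul_le_mul_of_nonneg_left _ hcmin.le
      exact mul_le_mul_of_nonneg_left (min_le_left _ _) hnε.le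

end Vale.Agent.P054F
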