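import Vale.Agent.P054.MathlibUsed
import Vale.Agent.P054.H25.Defs
import Vale.Agent.P054.H438.Conv
attribute [-instance] ProperSMul.toContinuousSMul IsTopologicalTorsor.toContinuousSMul IdemSemiring.toCanonicallyOrderedAdd IdemSemiring.toMulLeftMono IdemSemiring.toMulRightMono AddQuantale.instAddLeftMono AddQuantale.instAddRightMono Quantale.instMulLeftMono Quantale.instMulRightMono FiniteDimensional.rclike_to_real IsScalarTower.complexToReal FiniteDimensional.complexToReal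

set_option linter.all false
set_option autoImplicit false

open Finset

/-! P054, few points on `k`-flats: the four forms of the result. -/

namespace Vale.Agent.P054F

theorem pin_ncard (d : ℕ) (P : Finset (EuclideanSpace ℝ (Fin d))) (p : EuclideanSpace ℝ (Fin d)) 
    [DecidableEq (EuclideanSpace ℝ (Fin d))] :
    {r : ℝ | ∃ q ∈ P, q ≠ p ∧ r = dist p q}.ncard = ((P.erase p).image (dist p)).card := by
  have h1 : {r : ℝ | ∃ q ∈ P, q ≠ p ∧ r = dist p q} =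
      (((P.erase p).image (dist p) : Finset ℝ) : Set ℝ) := by
    ext r
    simp only [Set.mem_ofPred_eq, Finset.coe_image, Set.mem_image, Finset.mem_coe,
      Finset.mem_erase]
    constructor
    · rintro ⟨q, hq, hne, rfl⟩
      exact ⟨q, ⟨hne, hq⟩, rfl⟩
    · rintro ⟨q, ⟨hne, hq⟩, rfl⟩
      exact ⟨q, hq, hne, rfl⟩
  rw [h1, Set.ncard_coe_finset]

theorem KF_of_ncard {d k m : ℕ} {P : Finset (EuclideanSpace ℝ (Fin d))}
    (h : ∀ E : AffineSubspace ℝ (EuclideanSpace ℝ (Fin d)), Module.finrank ℝ E.direction = k →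
      {z : EuclideanSpace ℝ (Fin d) | z ∈ P ∧ z ∈ E}.ncard ≤ m) : KF k m P := by
  classical
  intro E hE
  have h1 := h E hE
  have h2 : {z : EuclideanSpace ℝ (Fin d) | z ∈ P ∧ z ∈ E} =
      ((P.filter (fun z => z ∈ E) : Finset (EuclideanSpace ℝ (Fin d))) :
        Set (EuclideanSpace ℝ (Fin d))) := by
    ext z
    simp
  rw [h2, Set.ncard_coe_finset] at h1
  convert h1

/-- the number of distinct distances from `p` to the other points of `P` -/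
noncomputable def pinned {d : ℕ} (P : Finset (EuclideanSpace ℝ (Fin d)))
    (p : EuclideanSpace ℝ (Fin d)) : ℕ :=
  {r : ℝ | ∃ q ∈ P, q ≠ p ∧ r = dist p q}.ncard

/-- every `k`-dimensional affine subspace contains at most `m` points of `P` -/
def FlatsLE {d : ℕ} (k : ℕ) (P : Finset (EuclideanSpace ℝ (Fin d))) (m : ℝ) : Prop :=
  ∀ E : AffineSubspace ℝ (EuclideanSpace ℝ (Fin d)), Module.finrank ℝ E.direction = k →
    (({z : EuclideanSpace ℝ (Fin d) | z ∈ P ∧ z ∈ E}.ncard : ℕ) : ℝ) ≤ m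

/-- the first form, with and without the minimum, and `1 ≤ m` -/
theorem form0 {d k : ℕ} (hk : 1 ≤ k) (hkd : k < d) (hMF : MF d k) :
    ∀ ε : ℝ, 0 < ε → ∃ c : ℝ, 0 < c ∧ ∀ (P : Finset (EuclideanSpace ℝ (Fin d))) (m : ℝ),
      2 ≤ P.card → FlatsLE k P m → 1 ≤ m ∧ ∃ p ∈ P,
        (d ≤ k + 2 → c * ((P.card:ℝ) ^ (-ε) *
          ((P.card:ℝ) ^ (2 * (d:ℝ) - k - 1) / m ^ ((d:ℝ) - 1)) ^
            (1 / ((d:ℝ) * ((d:ℝ) - k)))) ≤ (pinned P p : ℝ)) ∧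
        c * ((P.card:ℝ) ^ (-ε) * min ((P.card:ℝ) ^ (2 / (d:ℝ)))
          (((P.card:ℝ) ^ (2 * (d:ℝ) - k - 1) / m ^ ((d:ℝ) - 1)) ^
            (1 / ((d:ℝ) * ((d:ℝ) - k))))) ≤ (pinned P p : ℝ) := by
  classical
  intro ε hε
  obtain ⟨c, hc, h⟩ := conv_flats hk hkd hMF ε hε
  refine ⟨c, hc, ?_⟩
  intro P m hP hE
  obtain ⟨h1, p, hp, h2, h3⟩ := h P ⌊m⌋₊ hP (KF_of_ncard (fun E hE2 => Nat.le_floor (hE E hE2)))
  have hm1 : 1 ≤ m := by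
    by_contra hcon
    rw [not_le] at hcon
    have : ⌊m⌋₊ < 1 := (Nat.floor_lt' one_ne_zero).mpr (by exact_mod_cast hcon)
    omega
  refine ⟨hm1, p, hp, ?_⟩
  have hk' : (1:ℝ) ≤ k := by exact_mod_cast hk
  have hkd' : (k:ℝ) + 1 ≤ d := by exact_mod_cast hkd
  have hn0 : (0:ℝ) < P.card := by exact_mod_cast (by omega : 0 < P.card)
  have hf1 : (1:ℝ) ≤ (⌊m⌋₊ : ℝ) := by exact_mod_cast h1
  have hf0 : (0:ℝ) < (⌊m⌋₊ : ℝ) := by linarith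
  have hm0 : 0 < m := by linarith
  have hfm : (⌊m⌋₊ : ℝ) ≤ m := Nat.floor_le hm0.le
  have hd1 : (0:ℝ) ≤ (d:ℝ) - 1 := by linarith
  have hR : ((P.card:ℝ) ^ (2 * (d:ℝ) - k - 1) / m ^ ((d:ℝ) - 1)) ^
            (1 / ((d:ℝ) * ((d:ℝ) - k))) ≤
      ((P.card:ℝ) ^ (2 * (d:ℝ) - k - 1) / (⌊m⌋₊ : ℝ) ^ ((d:ℝ) - 1)) ^
            (1 / ((d:ℝ) * ((d:ℝ) - k))) := by
    have hdk : 0 < (d:ℝ) * ((d:ℝ) - k) := by
      apply mul_pos <;> linarith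
    apply Real.rpow_le_rpow (by positivity) _ (by positivity)
    apply div_le_div_of_nonneg_left (by positivity) (by positivity)
    exact Real.rpow_le_rpow hf0.le hfm hd1
  have hnε : 0 ≤ (P.card:ℝ) ^ (-ε) := by positivity
  unfold pinned
  rw [pin_ncard]
  refine ⟨?_, ?_⟩
  · intro hd
    refine le_trans ?_ (h2 hd)
    exact mul_le_mul_of_nonneg_left (mul_le_mul_of_nonneg_left hR hnε) hc.le
  · refine le_trans ?_ h3
    exact mul_le_mul_of_nonneg_left (mul_le_mul_of_nonneg_left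
      (min_le_min le_rfl hR) hnε) hc.le

/-- lines: the minimum is the second term -/
theorem form2_num {d : ℕ} (hd : 2 ≤ d) {n m ε : ℝ} (hn : 1 ≤ n) (hm : 1 ≤ m) :
    n ^ (-ε) * min (n ^ (2 / (d:ℝ)))
      ((n ^ (2 * (d:ℝ) - ((1:ℕ):ℝ) - 1) / m ^ ((d:ℝ) - 1)) ^ (1 / ((d:ℝ) * ((d:ℝ) - ((1:ℕ):ℝ))))) =
      n ^ (2 / (d:ℝ) - ε) / m ^ (1 / (d:ℝ)) := by
  have hd' : (2:ℝ) ≤ d := by exact_mod_cast hd
  have hn0 : 0 < n := by linarith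
  have hm0 : 0 < m := by linarith
  have hd0 : (d:ℝ) ≠ 0 := by linarith
  have hd1 : (d:ℝ) - 1 ≠ 0 := by linarith
  have h1 : (n ^ (2 * (d:ℝ) - ((1:ℕ):ℝ) - 1) / m ^ ((d:ℝ) - 1)) ^
      (1 / ((d:ℝ) * ((d:ℝ) - ((1:ℕ):ℝ)))) = n ^ (2 / (d:ℝ)) / m ^ (1 / (d:ℝ)) := by
    rw [Real.div_rpow (by positivity) (by positivity), ← Real.rpow_mul hn0.le,
      ← Real.rpow_mul hm0.le]
    congr 2
    · push_cast
      field_simp
      ring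
    · push_cast
      field_simp
  rw [h1]
  have h2 : 1 ≤ m ^ (1 / (d:ℝ)) := Real.one_le_rpow hm (by positivity)
  have h3 : n ^ (2 / (d:ℝ)) / m ^ (1 / (d:ℝ)) ≤ n ^ (2 / (d:ℝ)) :=
    div_le_self (by positivity) h2
  rw [min_eq_right h3, sub_eq_add_neg, Real.rpow_add hn0]
  ring

/-- codimension two: no minimum -/
theorem form3_num {d k : ℕ} (hk : 1 ≤ k) (hd : d = k + 2) {n m ε : ℝ} (hn : 1 ≤ n) (hm : 1 ≤ m) :
    n ^ (-ε) * (n ^ (2 * (d:ℝ) - k - 1) / m ^ ((d:ℝ) - 1)) ^ (1 / ((d:ℝ) * ((d:ℝ) - k))) =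
      n ^ (((d:ℝ) + 1) / (2 * d) - ε) / m ^ (((d:ℝ) - 1) / (2 * d)) := by
  have hdk : (d:ℝ) - k = 2 := by
    rw [hd]
    push_cast
    ring
  have hd0 : (d:ℝ) ≠ 0 := by
    have : 0 < d := by omega
    have : (0:ℝ) < d := by exact_mod_cast this
    linarith
  have hn0 : 0 < n := by linarith
  have hm0 : 0 < m := by linarith
  have h1 : 2 * (d:ℝ) - k - 1 = d + 1 := by linarith
  have h0 : n ^ (((d:ℝ) + 1) / (2 * d) - ε) = n ^ (((d:ℝ) + 1) / (2 * d)) * n ^ (-ε) := by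
    rw [← Real.rpow_add hn0, sub_eq_add_neg]
  rw [h1, hdk, Real.div_rpow (by positivity) (by positivity), ← Real.rpow_mul hn0.le,
      ← Real.rpow_mul hm0.le, h0]
  have h2 : ((d:ℝ) + 1) * (1 / (d * 2)) = ((d:ℝ) + 1) / (2 * d) := by
    field_simp
  have h3 : ((d:ℝ) - 1) * (1 / (d * 2)) = ((d:ℝ) - 1) / (2 * d) := by
    field_simp
  rw [h2, h3]
  ring

/-- few points on `k`-flats: both terms of the minimum are large -/
theorem form4_num {d k : ℕ} (hk : 1 ≤ k) (hkd : k < d) {n m M ε : ℝ} (hn : 1 ≤ n) (hm : 1 ≤ m)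
    (hM : 1 ≤ M) (h : m ≤ M * n ^ (((k:ℝ) - 1) / ((d:ℝ) - 1))) :
    (M ^ (((d:ℝ) - 1) / ((d:ℝ) * ((d:ℝ) - k))))⁻¹ * n ^ (2 / (d:ℝ) - ε) ≤
    n ^ (-ε) * min (n ^ (2 / (d:ℝ)))
      ((n ^ (2 * (d:ℝ) - k - 1) / m ^ ((d:ℝ) - 1)) ^ (1 / ((d:ℝ) * ((d:ℝ) - k)))) := by
  have h1 : (1:ℝ) ≤ k := by exact_mod_cast hk
  have h2 : (k:ℝ) + 1 ≤ d := by exact_mod_cast hkd
  have hn0 : 0 < n := by linarith
  have hm0 : 0 < m := by linarith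
  have hM0 : 0 < M := by linarith
  have hd0 : 0 < (d:ℝ) := by linarith
  have hd1 : 0 < (d:ℝ) - 1 := by linarith
  have hdk : 0 < (d:ℝ) - k := by linarith
  have hMpow : 1 ≤ M ^ (((d:ℝ) - 1) / ((d:ℝ) * ((d:ℝ) - k))) :=
    Real.one_le_rpow hM (by positivity)
  have hA : m ^ ((d:ℝ) - 1) ≤ M ^ ((d:ℝ) - 1) * n ^ ((k:ℝ) - 1) := by
    have h3 := Real.rpow_le_rpow hm0.le h hd1.le
    rw [Real.mul_rpow hM0.le (by positivity), ← Real.rpow_mul hn0.le,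
      div_mul_cancel₀ _ hd1.ne'] at h3
    exact h3
  have hB : n ^ (2 * ((d:ℝ) - k)) / M ^ ((d:ℝ) - 1) ≤
      n ^ (2 * (d:ℝ) - k - 1) / m ^ ((d:ℝ) - 1) := by
    rw [div_le_div_iff₀ (by positivity) (by positivity)]
    calc n ^ (2 * ((d:ℝ) - k)) * m ^ ((d:ℝ) - 1)
        ≤ n ^ (2 * ((d:ℝ) - k)) * (M ^ ((d:ℝ) - 1) * n ^ ((k:ℝ) - 1)) :=
          mul_le_mul_of_nonneg_left hA (by positivity)
      _ = (n ^ (2 * ((d:ℝ) - k)) * n ^ ((k:ℝ) - 1)) * M ^ ((d:ℝ) - 1) := by ring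
      _ = n ^ (2 * (d:ℝ) - k - 1) * M ^ ((d:ℝ) - 1) := by
          rw [← Real.rpow_add hn0]
          congr 2
          ring
  have hC : (M ^ (((d:ℝ) - 1) / ((d:ℝ) * ((d:ℝ) - k))))⁻¹ * n ^ (2 / (d:ℝ)) ≤
      (n ^ (2 * (d:ℝ) - k - 1) / m ^ ((d:ℝ) - 1)) ^ (1 / ((d:ℝ) * ((d:ℝ) - k))) := by
    have h3 := Real.rpow_le_rpow (by positivity) hB
      (by positivity : 0 ≤ 1 / ((d:ℝ) * ((d:ℝ) - k)))
    refine le_trans (le_of_eq ?_) h3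
    rw [Real.div_rpow (by positivity) (by positivity), ← Real.rpow_mul hn0.le,
      ← Real.rpow_mul hM0.le]
    have h4 : 2 * ((d:ℝ) - k) * (1 / ((d:ℝ) * ((d:ℝ) - k))) = 2 / (d:ℝ) := by
      field_simp
    have h5 : ((d:ℝ) - 1) * (1 / ((d:ℝ) * ((d:ℝ) - k))) = ((d:ℝ) - 1) / ((d:ℝ) * ((d:ℝ) - k)) := by
      field_simp
    rw [h4, h5]
    ring
  have hD : (M ^ (((d:ℝ) - 1) / ((d:ℝ) * ((d:ℝ) - k))))⁻¹ * n ^ (2 / (d:ℝ)) ≤
      n ^ (2 / (d:ℝ)) := by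
    rw [inv_mul_le_iff₀ (by positivity)]
    exact le_mul_of_one_le_left (by positivity) hMpow
  have hE : n ^ (2 / (d:ℝ) - ε) = n ^ (-ε) * n ^ (2 / (d:ℝ)) := by
    rw [← Real.rpow_add hn0]
    congr 1
    ring
  rw [hE]
  calc (M ^ (((d:ℝ) - 1) / ((d:ℝ) * ((d:ℝ) - k))))⁻¹ * (n ^ (-ε) * n ^ (2 / (d:ℝ)))
      = n ^ (-ε) * ((M ^ (((d:ℝ) - 1) / ((d:ℝ) * ((d:ℝ) - k))))⁻¹ * n ^ (2 / (d:ℝ))) := by ring
    _ ≤ _ := mul_le_mul_of_nonneg_left (le_min hD hC) (by positivity)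

theorem four_forms (hMF : ∀ d k : ℕ, 1 ≤ k → k < d → MF d k) :
    (∀ d k : ℕ, 1 ≤ k → k < d → ∀ ε : ℝ, 0 < ε → ∃ c : ℝ, 0 < c ∧
      ∀ (P : Finset (EuclideanSpace ℝ (Fin d))) (m : ℝ), 2 ≤ P.card → FlatsLE k P m →
        ∃ p ∈ P, c * ((P.card : ℝ) ^ (-ε) * min ((P.card : ℝ) ^ (2 / (d : ℝ)))
          (((P.card : ℝ) ^ (2 * (d : ℝ) - k - 1) / m ^ ((d : ℝ) - 1)) ^
            (1 / ((d : ℝ) * ((d : ℝ) - k))))) ≤ (pinned P p : ℝ)) ∧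
    (∀ d : ℕ, 2 ≤ d → ∀ ε : ℝ, 0 < ε → ∃ c : ℝ, 0 < c ∧
      ∀ (P : Finset (EuclideanSpace ℝ (Fin d))) (m : ℝ), 2 ≤ P.card → FlatsLE 1 P m →
        ∃ p ∈ P, c * ((P.card : ℝ) ^ (2 / (d : ℝ) - ε) / m ^ (1 / (d : ℝ))) ≤
          (pinned P p : ℝ)) ∧
    (∀ d k : ℕ, 1 ≤ k → d = k + 2 → ∀ ε : ℝ, 0 < ε → ∃ c : ℝ, 0 < c ∧
      ∀ (P : Finset (EuclideanSpace ℝ (Fin d))) (m : ℝ), 2 ≤ P.card → FlatsLE k P m →
        ∃ p ∈ P, c * ((P.card : ℝ) ^ (((d : ℝ) + 1) / (2 * d) - ε) /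
            m ^ (((d : ℝ) - 1) / (2 * d))) ≤ (pinned P p : ℝ)) ∧
    (∀ d k : ℕ, 1 ≤ k → k < d → ∀ M : ℝ, ∀ ε : ℝ, 0 < ε → ∃ c : ℝ, 0 < c ∧
      ∀ P : Finset (EuclideanSpace ℝ (Fin d)), 2 ≤ P.card →
        FlatsLE k P (M * (P.card : ℝ) ^ (((k : ℝ) - 1) / ((d : ℝ) - 1))) →
        ∃ p ∈ P, c * (P.card : ℝ) ^ (2 / (d : ℝ) - ε) ≤ (pinned P p : ℝ)) := by
  refine ⟨?_, ?_, ?_, ?_⟩
  · intro d k hk hkd ε hε
    obtain ⟨c, hc, h⟩ := form0 hk hkd (hMF d k hk hkd) ε hε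
    refine ⟨c, hc, ?_⟩
    intro P m hP hE
    obtain ⟨-, p, hp, -, h3⟩ := h P m hP hE
    exact ⟨p, hp, h3⟩
  · intro d hd ε hε
    obtain ⟨c, hc, h⟩ := form0 le_rfl (by omega : 1 < d) (hMF d 1 le_rfl (by omega)) ε hε
    refine ⟨c, hc, ?_⟩
    intro P m hP hE
    obtain ⟨hm1, p, hp, -, h3⟩ := h P m hP hE
    refine ⟨p, hp, ?_⟩
    have hn1 : (1:ℝ) ≤ P.card := by exact_mod_cast (by omega : 1 ≤ P.card)
    rw [form2_num hd hn1 hm1] at h3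
    exact h3
  · intro d k hk hd ε hε
    obtain ⟨c, hc, h⟩ := form0 hk (by omega : k < d) (hMF d k hk (by omega)) ε hε
    refine ⟨c, hc, ?_⟩
    intro P m hP hE
    obtain ⟨hm1, p, hp, h2, -⟩ := h P m hP hE
    refine ⟨p, hp, ?_⟩
    have hn1 : (1:ℝ) ≤ P.card := by exact_mod_cast (by omega : 1 ≤ P.card)
    have h3 := h2 (by omega)
    rw [form3_num hk hd hn1 hm1] at h3
    exact h3
  · intro d k hk hkd M ε hε
    obtain ⟨c, hc, h⟩ := form0 hk hkd (hMF d k hk hkd) ε hε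
    set M' : ℝ := max M 1 with hM'
    have hM1 : 1 ≤ M' := le_max_right _ _
    have hM0 : 0 < M' := by linarith
    refine ⟨c * (M' ^ (((d:ℝ) - 1) / ((d:ℝ) * ((d:ℝ) - k))))⁻¹, by positivity, ?_⟩
    intro P hP hE
    have hn1 : (1:ℝ) ≤ P.card := by exact_mod_cast (by omega : 1 ≤ P.card)
    have hpow : 0 ≤ (P.card:ℝ) ^ (((k:ℝ) - 1) / ((d:ℝ) - 1)) := by positivity
    obtain ⟨hm1, p, hp, -, h3⟩ := h P (M' * (P.card:ℝ) ^ (((k:ℝ) - 1) / ((d:ℝ) - 1))) hP (by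
      intro E hE2
      exact (hE E hE2).trans (mul_le_mul_of_nonneg_right (le_max_left _ _) hpow))
    refine ⟨p, hp, ?_⟩
    have h4 := form4_num (ε := ε) hk hkd hn1 hm1 hM1 le_rfl
    refine le_trans ?_ h3
    rw [mul_assoc]
    exact mul_le_mul_of_nonneg_left h4 hc.le

end Vale.Agent.P054F
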