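import Vale.Agent.P054.MathlibUsed
import Vale.Agent.P054.H420.MainFlats
import Vale.Agent.P054.H438.Conv
attribute [-instance] ProperSMul.toContinuousSMul IsTopologicalTorsor.toContinuousSMul IdemSemiring.toCanonicallyOrderedAdd IdemSemiring.toMulLeftMono IdemSemiring.toMulRightMono AddQuantale.instAddLeftMono AddQuantale.instAddRightMono Quantale.instMulLeftMono Quantale.instMulRightMono FiniteDimensional.rclike_to_real IsScalarTower.complexToReal FiniteDimensional.complexToReal

set_option linter.all false
set_option autoImplicit false

/-! P054, few points on `k`-flats: the bound holds in all dimensions. -/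

namespace Vale.Agent.P054F

theorem MF_all (d k : ℕ) (hk : 1 ≤ k) (hkd : k < d) : MF d k :=
  fun e he => main_flats k hk d hkd e he

end Vale.Agent.P054F
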